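import Mathlib

namespace Vale.Agent.Lib.P321

open scoped ENNReal NNReal

/-- The survival indicator of one bit: `true` (the bit is kept) with probability `1 - q`,
`false` (the bit is deleted) with probability `q`. -/
noncomputable def keep (q : ℝ≥0) : PMF Bool := PMF.bernoulli (1 - q) tsub_le_self

/-- The law `D_q(x)` of a trace of the binary string `x` through the deletion channel with
deletion probability `q`: each bit is deleted independently with probability `q`, the surviving
bits are concatenated in their original order. -/
noncomputable def traceLaw (q : ℝ≥0) : List Bool → PMF (List Bool)
  | [] => PMF.pure []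
  | b :: x => (keep q).bind fun k => (traceLaw q x).bind fun t =>
      PMF.pure (if k then b :: t else t)

/-- The joint law of `m` independent traces of `x`. -/
noncomputable def samplesLaw (q : ℝ≥0) (x : List Bool) : ℕ → PMF (List (List Bool))
  | 0 => PMF.pure []
  | m + 1 => (traceLaw q x).bind fun t => (samplesLaw q x m).bind fun ts => PMF.pure (t :: ts)

/-- `m` traces suffice for strings of length `n` at deletion probability `q`: some (possibly
randomized) estimator, given `m` independent traces of `x`, outputs `x` with probability at least
`2/3`, for every binary string `x` of length `n`. -/
def Suffices (q : ℝ≥0) (n m : ℕ) : Prop :=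
  ∃ est : List (List Bool) → PMF (List Bool), ∀ x : List Bool, x.length = n →
    (2 / 3 : ℝ≥0∞) ≤ ((samplesLaw q x m).bind est) x

/-- The worst-case sample complexity `T_q(n)` of trace reconstruction: the least `m` such that
`m` traces suffice. -/
noncomputable def sampleComplexity (q : ℝ≥0) (n : ℕ) : ℕ := sInf {m | Suffices q n m}

end Vale.Agent.Lib.P321
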