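import Mathlib
import Vale.Agent.Lib.P321.Defs

namespace Vale.Agent.Lib.P321

open scoped ENNReal NNReal

set_option linter.deprecated false

lemma keep_apply_true (q : ℝ≥0) : keep q true = ((1 - q : ℝ≥0) : ℝ≥0∞) := by
  simp [keep, PMF.bernoulli_apply]

lemma keep_apply_false (q : ℝ≥0) (hq : q ≤ 1) : keep q false = (q : ℝ≥0∞) := by
  simp [keep, PMF.bernoulli_apply, tsub_tsub_cancel_of_le hq]

/-- The conjunction of two independent survival indicators is a survival indicator. -/
lemma keep_and (q r q' : ℝ≥0) (hq : q ≤ 1) (hr : r ≤ 1) (hq' : q' ≤ 1)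
    (h : (1 - q) * (1 - r) = 1 - q') :
    ((keep q).bind fun k => (keep r).bind fun k' => PMF.pure (k && k')) = keep q' := by
  have hR : ((1:ℝ) - q) * (1 - r) = 1 - q' := by
    have := congrArg (fun z : ℝ≥0 => (z : ℝ)) h
    simpa [NNReal.coe_sub hq, NNReal.coe_sub hr, NNReal.coe_sub hq'] using this
  ext b
  simp only [PMF.bind_apply, tsum_bool, PMF.pure_apply]
  rw [keep_apply_true, keep_apply_true, keep_apply_false q hq, keep_apply_false r hr]
  cases b
  · rw [keep_apply_false q' hq']
    simp
    have h2 : q * (r + (1 - r)) + (1 - q) * r = q' := by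
      apply NNReal.eq
      push_cast [NNReal.coe_sub hq, NNReal.coe_sub hr]
      linarith
    exact_mod_cast h2
  · rw [keep_apply_true]
    simp
    exact_mod_cast h

/-- Composition of deletion channels: deleting with probability `r` from a trace taken with
deletion probability `q` gives a trace with deletion probability `q'`, where
`(1 - q) (1 - r) = 1 - q'`. -/
lemma trace_comp (q r q' : ℝ≥0) (hq : q ≤ 1) (hr : r ≤ 1) (hq' : q' ≤ 1)
    (h : (1 - q) * (1 - r) = 1 - q') (x : List Bool) :
    (traceLaw q x).bind (traceLaw r) = traceLaw q' x := by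
  induction x with
  | nil => simp [traceLaw, PMF.pure_bind]
  | cons b x ih =>
    have hL : (traceLaw q (b :: x)).bind (traceLaw r)
        = (keep q).bind fun k => (traceLaw q x).bind fun t =>
            traceLaw r (if k then b :: t else t) := by
      simp only [traceLaw, PMF.bind_bind, PMF.pure_bind]
    have hR : traceLaw q' (b :: x)
        = (keep q).bind fun k => (keep r).bind fun k' => (traceLaw q x).bind fun t =>
            (traceLaw r t).bind fun t' => PMF.pure (if (k && k') then b :: t' else t') := by
      rw [traceLaw, ← keep_and q r q' hq hr hq' h, ← ih]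
      simp only [PMF.bind_bind, PMF.pure_bind]
    rw [hL, hR]
    congr 1
    funext k
    cases k
    · simp only [Bool.false_and, Bool.false_eq_true, if_false, PMF.bind_pure, PMF.bind_const]
    · simp only [Bool.true_and, if_true]
      rw [PMF.bind_comm]
      simp only [traceLaw]

/-- Apply the deletion channel with deletion probability `r` independently to each sample. -/
noncomputable def thinAll (r : ℝ≥0) : List (List Bool) → PMF (List (List Bool))
  | [] => PMF.pure []
  | t :: ts => (traceLaw r t).bind fun t' => (thinAll r ts).bind fun ts' => PMF.pure (t' :: ts')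

lemma samples_comp (q r q' : ℝ≥0) (hq : q ≤ 1) (hr : r ≤ 1) (hq' : q' ≤ 1)
    (h : (1 - q) * (1 - r) = 1 - q') (x : List Bool) (m : ℕ) :
    (samplesLaw q x m).bind (thinAll r) = samplesLaw q' x m := by
  induction m with
  | zero => simp [samplesLaw, thinAll, PMF.pure_bind]
  | succ m ih =>
    have hL : (samplesLaw q x (m + 1)).bind (thinAll r)
        = (traceLaw q x).bind fun t => (samplesLaw q x m).bind fun ts =>
            (traceLaw r t).bind fun t' => (thinAll r ts).bind fun ts' =>
              PMF.pure (t' :: ts') := by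
      simp only [samplesLaw, thinAll, PMF.bind_bind, PMF.pure_bind]
    have hR : samplesLaw q' x (m + 1)
        = (traceLaw q x).bind fun t => (traceLaw r t).bind fun t' =>
            (samplesLaw q x m).bind fun ts => (thinAll r ts).bind fun ts' =>
              PMF.pure (t' :: ts') := by
      rw [samplesLaw, ← trace_comp q r q' hq hr hq' h, ← ih]
      simp only [PMF.bind_bind]
    rw [hL, hR]
    congr 1
    funext t
    rw [PMF.bind_comm]

/-- If `m` traces suffice at deletion probability `q'`, they suffice at any smaller deletion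
probability `q`. -/
lemma suffices_mono (q q' : ℝ≥0) (hqq' : q ≤ q') (hq' : q' ≤ 1) (n m : ℕ)
    (hS : Suffices q' n m) : Suffices q n m := by
  have hq : q ≤ 1 := hqq'.trans hq'
  obtain ⟨r, hr, h⟩ : ∃ r : ℝ≥0, r ≤ 1 ∧ (1 - q) * (1 - r) = 1 - q' := by
    by_cases hq1 : q = 1
    · refine ⟨0, zero_le_one, ?_⟩
      have : q' = 1 := le_antisymm hq' (hq1 ▸ hqq')
      rw [hq1, this]; simp
    · have hpos : 0 < 1 - q := tsub_pos_of_lt (lt_of_le_of_ne hq hq1)
      refine ⟨1 - (1 - q') / (1 - q), tsub_le_self, ?_⟩
      have hle : (1 - q') / (1 - q) ≤ 1 := by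
        rw [div_le_one hpos]
        exact tsub_le_tsub_left hqq' 1
      rw [tsub_tsub_cancel_of_le hle, mul_div_cancel₀ _ hpos.ne']
  obtain ⟨est, hest⟩ := hS
  refine ⟨fun ts => (thinAll r ts).bind est, fun x hx => ?_⟩
  have := hest x hx
  rw [← samples_comp q r q' hq hr hq' h x m, PMF.bind_bind] at this
  exact this

end Vale.Agent.Lib.P321
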