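import Mathlib
import Vale.Agent.Lib.P321.Defs
import Vale.Agent.Lib.P321.Thin

namespace Vale.Agent.Lib.P321

open scoped ENNReal NNReal

/-- Every trace is a sublist of the original string. -/
lemma sublist_of_mem_support (q : ℝ≥0) (x t : List Bool) (ht : t ∈ (traceLaw q x).support) :
    t.Sublist x := by
  induction x generalizing t with
  | nil =>
    simp only [traceLaw, PMF.support_pure, Set.mem_singleton_iff] at ht
    rw [ht]
  | cons b x ih =>
    simp only [traceLaw, PMF.mem_support_bind_iff, PMF.support_pure,
      Set.mem_singleton_iff] at ht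
    obtain ⟨k, -, t', ht', rfl⟩ := ht
    have := ih t' ht'
    cases k
    · simpa using this.cons b
    · simpa using this.cons_cons b

/-- A trace of the same length as `x` equals `x`. -/
lemma eq_of_mem_support_of_length (q : ℝ≥0) (x t : List Bool)
    (ht : t ∈ (traceLaw q x).support) (hlen : t.length = x.length) : t = x :=
  (sublist_of_mem_support q x t ht).eq_of_length hlen

/-- The trace equals `x` with probability at least `(1 - q)^n`. -/
lemma traceLaw_self_ge (q : ℝ≥0) (x : List Bool) :
    ((1 - q : ℝ≥0) : ℝ≥0∞) ^ x.length ≤ traceLaw q x x := by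
  induction x with
  | nil => simp [traceLaw]
  | cons b x ih =>
    simp only [traceLaw, PMF.bind_apply, List.length_cons, pow_succ]
    calc ((1 - q : ℝ≥0) : ℝ≥0∞) ^ x.length * ((1 - q : ℝ≥0) : ℝ≥0∞)
        ≤ traceLaw q x x * keep q true := by
          rw [keep_apply_true]
          exact mul_le_mul_left ih _
      _ = keep q true * (traceLaw q x x * (PMF.pure (b :: x) (b :: x))) := by
          rw [PMF.pure_apply_self, mul_one, mul_comm]
      _ ≤ keep q true * ∑' t, traceLaw q x t * (PMF.pure (if true then b :: t else t) (b :: x)) := by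
          gcongr
          exact ENNReal.le_tsum (f := fun t => traceLaw q x t *
            (PMF.pure (if true then b :: t else t) (b :: x))) x
      _ ≤ ∑' k, keep q k * ∑' t, traceLaw q x t * (PMF.pure (if k then b :: t else t) (b :: x)) :=
          ENNReal.le_tsum (f := fun k => keep q k * ∑' t, traceLaw q x t *
            (PMF.pure (if k then b :: t else t) (b :: x))) true

/-- The first sample of length `n` (the empty string if there is none). -/
def firstOfLen (n : ℕ) : List (List Bool) → List Bool
  | [] => []
  | t :: ts => if t.length = n then t else firstOfLen n ts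

/-- Success probability on `x` of the estimator `firstOfLen` with `m` samples. -/
noncomputable def succ (q : ℝ≥0) (x : List Bool) (m : ℕ) : ℝ≥0∞ :=
  ((samplesLaw q x m).bind fun ts => PMF.pure (firstOfLen x.length ts)) x

lemma succ_step (q : ℝ≥0) (x : List Bool) (m : ℕ) :
    succ q x (m + 1) = traceLaw q x x + (1 - traceLaw q x x) * succ q x m := by
  have hinner : ∀ t : List Bool, traceLaw q x t *
      ((samplesLaw q x m).bind fun ts => PMF.pure (firstOfLen x.length (t :: ts))) x
      = if t = x then traceLaw q x x else traceLaw q x t * succ q x m := by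
    intro t
    by_cases htx : t = x
    · subst htx
      simp only [firstOfLen, if_true, PMF.bind_const, PMF.pure_apply_self, mul_one]
    · rw [if_neg htx]
      by_cases hsupp : t ∈ (traceLaw q x).support
      · have hlen : t.length ≠ x.length := fun h =>
          htx (eq_of_mem_support_of_length q x t hsupp h)
        simp only [firstOfLen, if_neg hlen]
        rfl
      · have : traceLaw q x t = 0 := by
          simpa [PMF.mem_support_iff] using hsupp
        rw [this, zero_mul, zero_mul]
  have h1 : succ q x (m + 1) = ∑' t, traceLaw q x t *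
      ((samplesLaw q x m).bind fun ts => PMF.pure (firstOfLen x.length (t :: ts))) x := by
    simp only [succ, samplesLaw, PMF.bind_bind, PMF.pure_bind]
    rw [PMF.bind_apply]
  rw [h1]
  simp_rw [hinner]
  rw [ENNReal.tsum_eq_add_tsum_ite x]
  simp only [if_true]
  congr 1
  refine Eq.trans (b := ∑' t : List Bool,
      (if t = x then (0 : ℝ≥0∞) else traceLaw q x t) * succ q x m) (tsum_congr fun t => ?_) ?_
  · by_cases htx : t = x
    · simp [htx]
    · simp [htx]
  rw [ENNReal.tsum_mul_right]
  congr 1
  have h3 := ENNReal.tsum_eq_add_tsum_ite (f := fun t => traceLaw q x t) x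
  rw [PMF.tsum_coe] at h3
  have hne : traceLaw q x x ≠ ⊤ := PMF.apply_ne_top _ _
  refine ENNReal.eq_sub_of_add_eq' ENNReal.one_ne_top ?_
  rw [add_comm]
  convert h3.symm

lemma succ_ge (q : ℝ≥0) (x : List Bool) (m : ℕ) :
    1 - (1 - traceLaw q x x) ^ m ≤ succ q x m := by
  have ha : traceLaw q x x ≤ 1 := PMF.coe_le_one _ _
  induction m with
  | zero => simp
  | succ m ih =>
    rw [succ_step]
    set a := traceLaw q x x with ha_def
    have hb : (1 - a) ^ m ≤ 1 := pow_le_one₀ zero_le tsub_le_self
    calc 1 - (1 - a) ^ (m + 1) ≤ a + (1 - a) * (1 - (1 - a) ^ m) := by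
          rw [tsub_le_iff_right, add_assoc, pow_succ', ← mul_add, tsub_add_cancel_of_le hb,
            mul_one, add_tsub_cancel_of_le ha]
      _ ≤ a + (1 - a) * succ q x m := by gcongr

/-- For `q < 1` finitely many traces suffice: the sample complexity is finite. -/
lemma exists_suffices (q : ℝ≥0) (hq : q < 1) (n : ℕ) : ∃ m, Suffices q n m := by
  set a₀ : ℝ≥0∞ := ((1 - q : ℝ≥0) : ℝ≥0∞) ^ n with ha₀
  have hpos : (0 : ℝ≥0∞) < a₀ := by
    rw [ha₀]
    apply ENNReal.pow_pos
    exact_mod_cast tsub_pos_of_lt hq
  have hlt : 1 - a₀ < 1 := ENNReal.sub_lt_self ENNReal.one_ne_top one_ne_zero hpos.ne'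
  have htend := ENNReal.tendsto_pow_atTop_nhds_zero_of_lt_one hlt
  have hthird : (0 : ℝ≥0∞) < 1 / 3 := by
    apply ENNReal.div_pos one_ne_zero (by norm_num)
  obtain ⟨m, hm⟩ := (htend.eventually (gt_mem_nhds hthird)).exists
  refine ⟨m, fun ts => PMF.pure (firstOfLen n ts), fun x hx => ?_⟩
  subst hx
  have h1 := succ_ge q x m
  have h2 : (1 - traceLaw q x x) ^ m ≤ 1 / 3 := by
    calc (1 - traceLaw q x x) ^ m ≤ (1 - a₀) ^ m := by
          apply pow_le_pow_left₀ zero_le
          exact tsub_le_tsub_left (traceLaw_self_ge q x) 1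
      _ ≤ 1 / 3 := hm.le
  have h3 : (2 / 3 : ℝ≥0∞) ≤ 1 - (1 - traceLaw q x x) ^ m := by
    have h4 : (2 / 3 : ℝ≥0∞) = 1 - 1 / 3 := by
      refine ENNReal.eq_sub_of_add_eq (by simp) ?_
      rw [ENNReal.div_add_div_same]
      norm_num
      exact ENNReal.div_self (by norm_num) (by norm_num)
    rw [h4]
    exact tsub_le_tsub_left h2 1
  exact h3.trans h1

end Vale.Agent.Lib.P321
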