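import Mathlib
import Vale.Agent.Lib.P321.Defs

namespace Vale.Agent.Lib.P321

open scoped ENNReal NNReal

/-- From a trace of `x`, produce a trace of `false :: x`. -/
noncomputable def extend (q : ℝ≥0) (t : List Bool) : PMF (List Bool) :=
  (keep q).bind fun k => PMF.pure (if k then false :: t else t)

lemma trace_extend (q : ℝ≥0) (x : List Bool) :
    (traceLaw q x).bind (extend q) = traceLaw q (false :: x) := by
  rw [traceLaw, PMF.bind_comm]
  rfl

/-- Apply `extend` independently to each sample. -/
noncomputable def extendAll (q : ℝ≥0) : List (List Bool) → PMF (List (List Bool))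
  | [] => PMF.pure []
  | t :: ts => (extend q t).bind fun t' => (extendAll q ts).bind fun ts' => PMF.pure (t' :: ts')

lemma samples_extend (q : ℝ≥0) (x : List Bool) (m : ℕ) :
    (samplesLaw q x m).bind (extendAll q) = samplesLaw q (false :: x) m := by
  induction m with
  | zero => simp [samplesLaw, extendAll, PMF.pure_bind]
  | succ m ih =>
    have hL : (samplesLaw q x (m + 1)).bind (extendAll q)
        = (traceLaw q x).bind fun t => (samplesLaw q x m).bind fun ts =>
            (extend q t).bind fun t' => (extendAll q ts).bind fun ts' =>
              PMF.pure (t' :: ts') := by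
      simp only [samplesLaw, extendAll, PMF.bind_bind, PMF.pure_bind]
    have hR : samplesLaw q (false :: x) (m + 1)
        = (traceLaw q x).bind fun t => (extend q t).bind fun t' =>
            (samplesLaw q x m).bind fun ts => (extendAll q ts).bind fun ts' =>
              PMF.pure (t' :: ts') := by
      rw [samplesLaw, ← trace_extend q x, ← ih]
      simp only [PMF.bind_bind]
    rw [hL, hR]
    congr 1
    funext t
    rw [PMF.bind_comm]

/-- If `m` traces suffice for length `n + 1`, they suffice for length `n`. -/
lemma suffices_length (q : ℝ≥0) (n m : ℕ) (hS : Suffices q (n + 1) m) : Suffices q n m := by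
  obtain ⟨est, hest⟩ := hS
  refine ⟨fun ts => ((extendAll q ts).bind est).map List.tail, fun x hx => ?_⟩
  have h1 := hest (false :: x) (by simp [hx])
  rw [← samples_extend q x m, PMF.bind_bind] at h1
  refine h1.trans ?_
  have h2 : ((samplesLaw q x m).bind fun ts => ((extendAll q ts).bind est).map List.tail)
      = ((samplesLaw q x m).bind fun ts => (extendAll q ts).bind est).map List.tail := by
    rw [PMF.map_bind]
  rw [h2, PMF.map_apply]
  refine le_trans ?_ (ENNReal.le_tsum (false :: x))
  simp

end Vale.Agent.Lib.P321
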